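import Vale.Agent.P113C.Prim

set_option linter.all false

/-!
# P113, block C: primitive recursive operations on integers and rationals (Mathlib's codings)
-/

namespace Vale.Agent.P113C

universe u₁ u₂

variable {α : Type u₁} {σ : Type u₂} [Primcodable α] [Primcodable σ]

/-! ### Integers -/

theorem pr_int_sub_nat {f g : α → ℕ} (hf : Primrec f) (hg : Primrec g) :
    Primrec (fun a => (f a : ℤ) - (g a : ℤ)) := by
  have h : Primrec (fun a => if g a ≤ f a then 2 * (f a - g a) else 2 * (g a - f a - 1) + 1) := by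
    fun_prop
  refine Primrec.encode_iff.1 (h.of_eq fun x => ?_)
  generalize f x = a
  generalize g x = b
  split_ifs with hab
  · obtain ⟨c, rfl⟩ := Nat.exists_eq_add_of_le hab
    have e1 : ((b + c : ℕ) : ℤ) - (b : ℤ) = ((c : ℕ) : ℤ) := by push_cast; ring
    rw [e1, Nat.add_sub_cancel_left]
    rfl
  · obtain ⟨c, rfl⟩ : ∃ c, b = a + c + 1 := ⟨b - a - 1, by omega⟩
    have e1 : ((a : ℕ) : ℤ) - ((a + c + 1 : ℕ) : ℤ) = Int.negSucc c := by
      rw [Int.negSucc_eq]; push_cast; ring
    have e2 : a + c + 1 - a - 1 = c := by omega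
    rw [e1, e2]
    rfl

@[fun_prop] theorem pr_int_toNat {f : α → ℤ} (hf : Primrec f) : Primrec (fun a => (f a).toNat) := by
  have h : Primrec (fun a => if Encodable.encode (f a) % 2 = 0 then Encodable.encode (f a) / 2
      else 0) := by fun_prop
  refine h.of_eq fun a => ?_
  rcases f a with n | n
  · have e : Encodable.encode (Int.ofNat n) = 2 * n := rfl
    rw [e, if_pos (by omega)]
    simp
  · have e : Encodable.encode (Int.negSucc n) = 2 * n + 1 := rfl
    rw [e, if_neg (by omega)]
    rfl

@[fun_prop] theorem pr_int_natAbs {f : α → ℤ} (hf : Primrec f) :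
    Primrec (fun a => (f a).natAbs) := by
  have h : Primrec (fun a => (Encodable.encode (f a) + 1) / 2) := by fun_prop
  refine h.of_eq fun a => ?_
  rcases f a with n | n
  · have e : Encodable.encode (Int.ofNat n) = 2 * n := rfl
    rw [e]
    simp
    omega
  · have e : Encodable.encode (Int.negSucc n) = 2 * n + 1 := rfl
    rw [e, Int.natAbs_negSucc]
    omega

theorem pr_int_negToNat {f : α → ℤ} (hf : Primrec f) : Primrec (fun a => (-f a).toNat) := by
  have h : Primrec (fun a => (f a).natAbs - (f a).toNat) := by fun_prop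
  exact h.of_eq fun a => by omega

@[fun_prop] theorem pr_int_natCast {f : α → ℕ} (hf : Primrec f) : Primrec (fun a => (f a : ℤ)) :=
  (pr_int_sub_nat hf (pr_const 0)).of_eq fun a => by simp

@[fun_prop] theorem pr_int_ofNat {f : α → ℕ} (hf : Primrec f) :
    Primrec (fun a => Int.ofNat (f a)) := pr_int_natCast hf

@[fun_prop] theorem pr_int_neg {f : α → ℤ} (hf : Primrec f) : Primrec (fun a => -f a) :=
  (pr_int_sub_nat (pr_int_negToNat hf) (pr_int_toNat hf)).of_eq fun a => by omega

@[fun_prop] theorem pr_int_add {f g : α → ℤ} (hf : Primrec f) (hg : Primrec g) :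
    Primrec (fun a => f a + g a) :=
  (pr_int_sub_nat (pr_nat_add (pr_int_toNat hf) (pr_int_toNat hg))
    (pr_nat_add (pr_int_negToNat hf) (pr_int_negToNat hg))).of_eq fun a => by omega

@[fun_prop] theorem pr_int_sub {f g : α → ℤ} (hf : Primrec f) (hg : Primrec g) :
    Primrec (fun a => f a - g a) :=
  (pr_int_add hf (pr_int_neg hg)).of_eq fun a => (sub_eq_add_neg _ _).symm

@[fun_prop] theorem pr_int_mul {f g : α → ℤ} (hf : Primrec f) (hg : Primrec g) :
    Primrec (fun a => f a * g a) := by
  have a1 := pr_int_toNat hf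
  have a2 := pr_int_toNat hg
  have b1 := pr_int_negToNat hf
  have b2 := pr_int_negToNat hg
  refine (pr_int_sub_nat (pr_nat_add (pr_nat_mul a1 a2) (pr_nat_mul b1 b2))
    (pr_nat_add (pr_nat_mul a1 b2) (pr_nat_mul b1 a2))).of_eq fun p => ?_
  have e1 : ((f p).toNat : ℤ) - ((-f p).toNat : ℤ) = f p := by omega
  have e2 : ((g p).toNat : ℤ) - ((-g p).toNat : ℤ) = g p := by omega
  generalize (f p).toNat = x at *
  generalize (-f p).toNat = y at *
  generalize (g p).toNat = z at *
  generalize (-g p).toNat = w at *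
  rw [← e1, ← e2]
  push_cast
  ring

@[fun_prop] theorem pr_int_le {f g : α → ℤ} [∀ a, Decidable (f a ≤ g a)] (hf : Primrec f)
    (hg : Primrec g) : Primrec (fun a => decide (f a ≤ g a)) := by
  have h : Primrec (fun a => decide ((f a - g a).toNat = 0)) := by fun_prop
  refine h.of_eq fun a => ?_
  rw [Bool.eq_iff_iff]
  simp only [decide_eq_true_eq]
  omega

@[fun_prop] theorem pr_int_lt {f g : α → ℤ} [∀ a, Decidable (f a < g a)] (hf : Primrec f)
    (hg : Primrec g) : Primrec (fun a => decide (f a < g a)) := by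
  have h : Primrec (fun a => decide (f a + 1 ≤ g a)) := by fun_prop
  refine h.of_eq fun a => ?_
  rw [Bool.eq_iff_iff]
  simp only [decide_eq_true_eq]
  omega

@[fun_prop] theorem pr_int_sign {f : α → ℤ} (hf : Primrec f) : Primrec (fun a => (f a).sign) := by
  have h : Primrec (fun a => if f a = 0 then (0 : ℤ) else if 0 ≤ f a then 1 else -1) := by fun_prop
  refine h.of_eq fun a => ?_
  rcases lt_trichotomy (f a) 0 with h0 | h0 | h0
  · rw [if_neg h0.ne, if_neg (not_le.2 h0), Int.sign_eq_neg_one_of_neg h0]
  · simp [h0]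
  · rw [if_neg h0.ne', if_pos h0.le, Int.sign_eq_one_of_pos h0]

@[fun_prop] theorem pr_int_pow {f : α → ℤ} {n : α → ℕ} (hf : Primrec f) (hn : Primrec n) :
    Primrec (fun a => f a ^ n a) := by
  have h : Primrec (fun a => (fun r => r * f a)^[n a] 1) := by fun_prop
  refine h.of_eq fun a => ?_
  induction n a with
  | zero => simp
  | succ k ih => rw [Function.iterate_succ_apply', ih, pow_succ]

/-! ### Rationals -/

/-- the code of a rational for the `Encodable` instance -/
def ecode (q : ℚ) : ℕ := Nat.pair (Encodable.encode q.num) q.den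

/-- the numbers that are such codes -/
def isCode (n : ℕ) : Bool :=
  decide (0 < (Nat.unpair n).2) &&
    decide (Nat.gcd (Denumerable.ofNat ℤ (Nat.unpair n).1).natAbs (Nat.unpair n).2 = 1)

theorem pr_isCode : Primrec isCode := by
  have h : Primrec (Denumerable.ofNat ℤ) := Primrec.ofNat ℤ
  unfold isCode
  fun_prop

theorem isCode_iff (n : ℕ) : isCode n = true ↔ n ∈ Set.range ecode := by
  constructor
  · intro h
    simp only [isCode, Bool.and_eq_true, decide_eq_true_eq] at h
    refine ⟨⟨Denumerable.ofNat ℤ (Nat.unpair n).1, (Nat.unpair n).2, h.1.ne', h.2⟩, ?_⟩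
    simp only [ecode, Denumerable.encode_ofNat, Nat.pair_unpair]
  · rintro ⟨q, rfl⟩
    simp only [isCode, ecode, Nat.unpair_pair, Denumerable.ofNat_encode, Bool.and_eq_true,
      decide_eq_true_eq]
    exact ⟨q.den_pos, q.reduced⟩

/-- the code of a rational for the `Primcodable` instance -/
def pcode (q : ℚ) : ℕ := @Encodable.encode ℚ (Primcodable.toEncodable) q

theorem pcode_eq (q : ℚ) : pcode q = (List.range (ecode q)).countP isCode := by
  have h : ∀ (d : DecidablePred (· ∈ Set.range ecode)) (m : ℕ),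
      (List.range m).countP (fun x => @decide _ (d x)) = (List.range m).countP isCode := by
    intro d m
    congr 1
    funext x
    rw [Bool.eq_iff_iff, isCode_iff]
    simp
  exact h (@Encodable.decidableRangeEncode ℚ Rat.instEncodable) (ecode q)

theorem pr_of_ecode {f : α → ℚ} (hf : Primrec (fun a => ecode (f a))) : Primrec f := by
  have h0 := pr_isCode
  have h : Primrec (fun a => (List.range (ecode (f a))).countP isCode) := by fun_prop
  exact Primrec.encode_iff.1 (h.of_eq fun a => (pcode_eq (f a)).symm)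

theorem countP_mono_range (p : ℕ → Bool) {m n : ℕ} (h : m ≤ n) :
    (List.range m).countP p ≤ (List.range n).countP p :=
  (List.range_sublist.2 h).countP_le

theorem countP_lt_range (p : ℕ → Bool) {m n : ℕ} (h : m < n) (hm : p m = true) :
    (List.range m).countP p < (List.range n).countP p := by
  refine lt_of_lt_of_le ?_ (countP_mono_range p (Nat.succ_le_of_lt h))
  rw [List.range_succ, List.countP_append]
  simp [hm]

theorem le_countP (n : ℕ) : n ≤ (List.range (Nat.pair (2 * n) 1)).countP isCode := by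
  induction n with
  | zero => simp
  | succ k ih =>
    refine Nat.succ_le_of_lt (lt_of_le_of_lt ih (countP_lt_range _ ?_ ?_))
    · exact Nat.pair_lt_pair_left _ (by omega)
    · exact (isCode_iff _).2 ⟨(k : ℚ), by simp [ecode]; rfl⟩

theorem pr_ecode : Primrec ecode := by
  have h0 := pr_isCode
  have h1 : Primrec pcode := Primrec.encode
  refine Primrec.of_graph ⟨fun q => Nat.pair (2 * (pcode q + 1)) 1, by fun_prop, fun q => ?_⟩ ?_
  · show ecode q ≤ Nat.pair (2 * (pcode q + 1)) 1
    by_contra hlt
    have h2 := countP_mono_range isCode (not_le.1 hlt).le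
    have h3 := le_countP (pcode q + 1)
    have h4 := pcode_eq q
    omega
  · have h : Primrec (fun p : ℚ × ℕ => isCode p.2 &&
        decide ((List.range p.2).countP isCode = pcode p.1)) := by fun_prop
    refine Primrec.primrecPred (h.of_eq fun p => ?_)
    rw [Bool.eq_iff_iff]
    simp only [Bool.and_eq_true, decide_eq_true_eq]
    have hq : isCode (ecode p.1) = true := (isCode_iff _).2 ⟨_, rfl⟩
    constructor
    · rintro ⟨h1, h2⟩
      rw [pcode_eq] at h2
      rcases lt_trichotomy (ecode p.1) p.2 with h3 | h3 | h3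
      · exact absurd h2 (countP_lt_range _ h3 hq).ne'
      · exact h3
      · exact absurd h2 (countP_lt_range _ h3 h1).ne
    · intro h1
      rw [← h1]
      exact ⟨hq, (pcode_eq _).symm⟩

@[fun_prop] theorem pr_rat_num {f : α → ℚ} (hf : Primrec f) : Primrec (fun a => (f a).num) := by
  have h0 : Primrec (Denumerable.ofNat ℤ) := Primrec.ofNat ℤ
  have h1 := pr_ecode
  have h : Primrec (fun a => Denumerable.ofNat ℤ (Nat.unpair (ecode (f a))).1) := by fun_prop
  exact h.of_eq fun a => by simp only [ecode, Nat.unpair_pair, Denumerable.ofNat_encode]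

@[fun_prop] theorem pr_rat_den {f : α → ℚ} (hf : Primrec f) : Primrec (fun a => (f a).den) := by
  have h1 := pr_ecode
  have h : Primrec (fun a => (Nat.unpair (ecode (f a))).2) := by fun_prop
  exact h.of_eq fun a => by simp [ecode]

@[fun_prop] theorem pr_mkRat {f : α → ℤ} {g : α → ℕ} (hf : Primrec f) (hg : Primrec g) :
    Primrec (fun a => mkRat (f a) (g a)) := by
  refine pr_of_ecode ?_
  have h : Primrec (fun a => if g a = 0 then Nat.pair 0 1 else
      Nat.pair (Encodable.encode ((f a).sign * (((f a).natAbs / Nat.gcd (g a) (f a).natAbs : ℕ) : ℤ)))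
        (g a / Nat.gcd (g a) (f a).natAbs)) := by fun_prop
  refine h.of_eq fun a => ?_
  generalize f a = x
  generalize g a = d
  split_ifs with hd
  · subst hd
    simp [ecode]
    rfl
  · unfold ecode
    rw [Rat.num_mkRat, Rat.den_mkRat, if_neg hd, if_neg hd]
    congr 2
    have hdvd : ((Nat.gcd d x.natAbs : ℕ) : ℤ) ∣ (x.natAbs : ℤ) :=
      Int.natCast_dvd_natCast.2 (Nat.gcd_dvd_right _ _)
    rw [Int.natCast_div, ← Int.mul_ediv_assoc _ hdvd, Int.sign_mul_natAbs]

@[fun_prop] theorem pr_rat_intCast {f : α → ℤ} (hf : Primrec f) :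
    Primrec (fun a => (f a : ℚ)) :=
  (pr_mkRat hf (pr_const 1)).of_eq fun a => by simp [Rat.mkRat_eq_div]

@[fun_prop] theorem pr_rat_natCast {f : α → ℕ} (hf : Primrec f) :
    Primrec (fun a => (f a : ℚ)) :=
  (pr_rat_intCast (pr_int_natCast hf)).of_eq fun a => by simp

@[fun_prop] theorem pr_rat_add {f g : α → ℚ} (hf : Primrec f) (hg : Primrec g) :
    Primrec (fun a => f a + g a) := by
  have h : Primrec (fun a => mkRat ((f a).num * (g a).den + (g a).num * (f a).den)
      ((f a).den * (g a).den)) := by fun_prop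
  exact h.of_eq fun a => (Rat.add_def' _ _).symm

@[fun_prop] theorem pr_rat_mul {f g : α → ℚ} (hf : Primrec f) (hg : Primrec g) :
    Primrec (fun a => f a * g a) := by
  have h : Primrec (fun a => mkRat ((f a).num * (g a).num) ((f a).den * (g a).den)) := by fun_prop
  exact h.of_eq fun a => (Rat.mul_def' _ _).symm

@[fun_prop] theorem pr_rat_neg {f : α → ℚ} (hf : Primrec f) : Primrec (fun a => -f a) :=
  (pr_rat_mul (pr_const (-1)) hf).of_eq fun a => by simp

@[fun_prop] theorem pr_rat_sub {f g : α → ℚ} (hf : Primrec f) (hg : Primrec g) :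
    Primrec (fun a => f a - g a) :=
  (pr_rat_add hf (pr_rat_neg hg)).of_eq fun a => (sub_eq_add_neg _ _).symm

@[fun_prop] theorem pr_rat_inv {f : α → ℚ} (hf : Primrec f) : Primrec (fun a => (f a)⁻¹) := by
  have h : Primrec (fun a => mkRat ((f a).num.sign * (f a).den) (f a).num.natAbs) := by fun_prop
  refine h.of_eq fun a => ?_
  generalize f a = q
  rw [Rat.mkRat_eq_div]
  conv_rhs => rw [← Rat.num_div_den q, inv_div]
  rcases eq_or_ne q.num 0 with h0 | h0
  · simp [h0]
  · have h1 : (q.num : ℚ) ≠ 0 := by exact_mod_cast h0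
    have h2 : ((q.num.natAbs : ℕ) : ℚ) ≠ 0 := by exact_mod_cast (Int.natAbs_ne_zero.2 h0)
    rw [div_eq_div_iff h2 h1]
    have h3 : q.num.sign * q.num = (q.num.natAbs : ℤ) := by
      rw [Int.sign_mul_self_eq_natAbs]
    have h4 : ((q.num.sign : ℤ) : ℚ) * (q.num : ℚ) = ((q.num.natAbs : ℕ) : ℚ) := by
      rw [← Int.cast_mul, h3, Int.cast_natCast]
    rw [← h4]
    push_cast
    ring

@[fun_prop] theorem pr_rat_div {f g : α → ℚ} (hf : Primrec f) (hg : Primrec g) :
    Primrec (fun a => f a / g a) :=
  (pr_rat_mul hf (pr_rat_inv hg)).of_eq fun a => (div_eq_mul_inv _ _).symm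

@[fun_prop] theorem pr_rat_pow {f : α → ℚ} {n : α → ℕ} (hf : Primrec f) (hn : Primrec n) :
    Primrec (fun a => f a ^ n a) := by
  have h : Primrec (fun a => (fun r => r * f a)^[n a] 1) := by fun_prop
  refine h.of_eq fun a => ?_
  induction n a with
  | zero => simp
  | succ k ih => rw [Function.iterate_succ_apply', ih, pow_succ]

@[fun_prop] theorem pr_rat_zpow {f : α → ℚ} {n : α → ℤ} (hf : Primrec f) (hn : Primrec n) :
    Primrec (fun a => f a ^ n a) := by
  have h : Primrec (fun a => if 0 ≤ n a then f a ^ (n a).toNat else (f a ^ (-n a).toNat)⁻¹) := by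
    fun_prop
  refine h.of_eq fun a => ?_
  split_ifs with h0
  · rw [← zpow_natCast, Int.toNat_of_nonneg h0]
  · rw [← zpow_natCast, Int.toNat_of_nonneg (by omega), zpow_neg, inv_inv]

@[fun_prop] theorem pr_rat_le {f g : α → ℚ} [∀ a, Decidable (f a ≤ g a)] (hf : Primrec f)
    (hg : Primrec g) : Primrec (fun a => decide (f a ≤ g a)) := by
  have h : Primrec (fun a => decide (0 ≤ (g a - f a).num)) := by fun_prop
  refine h.of_eq fun a => ?_
  rw [Bool.eq_iff_iff]
  simp only [decide_eq_true_eq, Rat.num_nonneg, sub_nonneg]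

@[fun_prop] theorem pr_rat_lt {f g : α → ℚ} [∀ a, Decidable (f a < g a)] (hf : Primrec f)
    (hg : Primrec g) : Primrec (fun a => decide (f a < g a)) := by
  have h : Primrec (fun a => !decide (g a ≤ f a)) := by fun_prop
  refine h.of_eq fun a => ?_
  rw [Bool.eq_iff_iff]
  simp

@[fun_prop] theorem pr_rat_max {f g : α → ℚ} (hf : Primrec f) (hg : Primrec g) :
    Primrec (fun a => max (f a) (g a)) := by
  have h : Primrec (fun a => if f a ≤ g a then g a else f a) := by fun_prop
  exact h.of_eq fun a => (max_def _ _).symm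

@[fun_prop] theorem pr_rat_min {f g : α → ℚ} (hf : Primrec f) (hg : Primrec g) :
    Primrec (fun a => min (f a) (g a)) := by
  have h : Primrec (fun a => if f a ≤ g a then f a else g a) := by fun_prop
  exact h.of_eq fun a => (min_def _ _).symm

@[fun_prop] theorem pr_rat_abs {f : α → ℚ} (hf : Primrec f) : Primrec (fun a => |f a|) := by
  have h : Primrec (fun a => max (f a) (-f a)) := by fun_prop
  exact h.of_eq fun a => (abs_eq_max_neg).symm

@[fun_prop] theorem pr_rat_sum {l : α → List ℚ} (hl : Primrec l) :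
    Primrec (fun a => (l a).sum) := by
  have h : Primrec (fun a => (l a).foldr (fun b r => b + r) 0) := by fun_prop
  exact h.of_eq fun a => rfl

@[fun_prop] theorem pr_rat_prod {l : α → List ℚ} (hl : Primrec l) :
    Primrec (fun a => (l a).prod) := by
  have h : Primrec (fun a => (l a).foldr (fun b r => b * r) 1) := by fun_prop
  exact h.of_eq fun a => rfl

@[fun_prop] theorem pr_int_sum {l : α → List ℤ} (hl : Primrec l) :
    Primrec (fun a => (l a).sum) := by
  have h : Primrec (fun a => (l a).foldr (fun b r => b + r) 0) := by fun_prop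
  exact h.of_eq fun a => rfl

/-! ### Functions on `Fin n` -/

@[fun_prop] theorem pr_apply {n : ℕ} (i : Fin n) : Primrec (fun f : Fin n → σ => f i) :=
  pr_app pr_id (pr_const i)

@[fun_prop] theorem pr_pi' {n : ℕ} {f : α → Fin n → σ} (hf : ∀ i, Primrec (fun a => f a i)) :
    Primrec (fun a i => f a i) := pr_pi hf

@[fun_prop] theorem pr_vecCons {n : ℕ} {f : α → σ} {g : α → Fin n → σ} (hf : Primrec f)
    (hg : Primrec g) : Primrec (fun a => Matrix.vecCons (f a) (g a)) := by
  refine pr_pi fun i => ?_
  refine Fin.cases ?_ (fun j => ?_) i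
  · simpa using hf
  · simpa using pr_app hg (pr_const j)

@[fun_prop] theorem pr_update {n : ℕ} {f : α → Fin n → σ} {i : α → Fin n} {g : α → σ}
    (hf : Primrec f) (hi : Primrec i) (hg : Primrec g) :
    Primrec (fun a => Function.update (f a) (i a) (g a)) := by
  refine pr_pi fun j => ?_
  have h1 := pr_app hf (pr_const j)
  have h : Primrec (fun a => if j = i a then g a else f a j) := pr_ite (by fun_prop) hg h1
  exact h.of_eq fun a => by rw [Function.update_apply]

end Vale.Agent.P113C
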