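import Vale.Agent.P113.Iface
import Vale.Agent.P113C.PrimQ

set_option linter.all false

/-!
# P113, block C: the halting predicate is recursively enumerable, and the two maps into rational
data are computable
-/

namespace Vale.Agent.P113C

open Vale.Agent.P113

attribute [local irreducible] Primrec

/-- finite configurations: state, head, and the list of the written cells, latest first -/
abbrev LCfg : Type := ℕ × ℤ × List (ℤ × ℕ)

/-- the content of the cell `k` -/
def cell (w : List ℕ) (l : List (ℤ × ℕ)) (k : ℤ) : ℕ :=
  (l.lookup k).getD (if 0 ≤ k then w.getD k.toNat 0 else 0)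

/-- the displacement, without pattern matching -/
def shift' (o : Option Bool) : ℤ := o.elim 0 fun b => bif b then 1 else -1

theorem shift'_eq (o : Option Bool) : shift' o = shift o := by
  rcases o with _ | _ | _ <;> rfl

/-- one step on finite configurations -/
def lstep (z : Machine × List ℕ) (c : LCfg) : LCfg :=
  ((z.1.delta c.1 (cell z.2 c.2.2 c.2.1)).1,
    c.2.1 + shift' (z.1.delta c.1 (cell z.2 c.2.2 c.2.1)).2.2,
    (c.2.1, (z.1.delta c.1 (cell z.2 c.2.2 c.2.1)).2.1) :: c.2.2)

/-- the configuration given by a finite configuration -/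
def toCfg (w : List ℕ) (c : LCfg) : Config := (c.1, c.2.1, cell w c.2.2)

theorem toCfg_lstep (z : Machine × List ℕ) (c : LCfg) :
    toCfg z.2 (lstep z c) = z.1.step (toCfg z.2 c) := by
  unfold toCfg lstep Machine.step
  refine Prod.ext rfl (Prod.ext ?_ ?_)
  · simp only [shift'_eq]
  · funext k
    simp only [Function.update_apply]
    split_ifs with hk
    · subst hk
      simp [cell, List.lookup]
    · have : (k == c.2.1) = false := by simpa using hk
      simp only [cell, List.lookup, this]

theorem toCfg_iter (z : Machine × List ℕ) (n : ℕ) :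
    toCfg z.2 ((lstep z)^[n] (z.1.1, 0, [])) = z.1.step^[n] (z.1.init z.2) := by
  induction n with
  | zero => rfl
  | succ n ih => rw [Function.iterate_succ_apply', Function.iterate_succ_apply', toCfg_lstep, ih]

@[fun_prop] theorem pr_cell :
    Primrec (fun p : List ℕ × List (ℤ × ℕ) × ℤ => cell p.1 p.2.1 p.2.2) := by
  unfold cell
  fun_prop

@[fun_prop] theorem pr_shift' : Primrec shift' := by
  unfold shift'
  fun_prop

@[fun_prop] theorem pr_delta :
    Primrec (fun p : Machine × ℕ × ℕ => Machine.delta p.1 p.2.1 p.2.2) := by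
  unfold Machine.delta
  fun_prop

@[fun_prop] theorem pr_lstep :
    Primrec (fun p : (Machine × List ℕ) × LCfg => lstep p.1 p.2) := by
  unfold lstep
  fun_prop

/-- the machine is in a halting state after `n` steps -/
def haltsAt (z : Machine × List ℕ) (n : ℕ) : Bool :=
  decide (((lstep z)^[n] (z.1.1, 0, [])).1 ∈ z.1.2.1)

theorem pr_haltsAt : Primrec (fun p : (Machine × List ℕ) × ℕ => haltsAt p.1 p.2) := by
  unfold haltsAt
  fun_prop

theorem halts_iff (z : Machine × List ℕ) : z.1.Halts z.2 ↔ ∃ n, haltsAt z n = true := by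
  unfold Machine.Halts haltsAt
  refine exists_congr fun n => ?_
  rw [← toCfg_iter, decide_eq_true_eq]
  rfl

/-- The halting predicate is recursively enumerable. -/
theorem halts_re : REPred (fun z : Machine × List ℕ => z.1.Halts z.2) := by
  have h1 : Partrec (fun z : Machine × List ℕ =>
      Nat.rfind fun n => (Part.some (haltsAt z n) : Part Bool)) :=
    Partrec.rfind (pr_haltsAt.to_comp.partrec)
  refine h1.dom_re.of_eq fun z => ?_
  rw [halts_iff]
  refine (Nat.rfind_dom (p := fun n => (Part.some (haltsAt z n) : Part Bool))).trans ?_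
  constructor
  · rintro ⟨n, h, -⟩
    exact ⟨n, by simpa using h⟩
  · rintro ⟨n, h⟩
    exact ⟨n, by simpa using h, fun _ => trivial⟩

theorem pr_code (B : ℕ) : Primrec (code B) := by
  have h : Primrec (fun l : List ℕ => (l.flatMap fun a : ℕ => [(a : ℚ)]).foldr
      (fun (a r : ℚ) => (a + r) / B) 0) := by fun_prop
  exact h.of_eq fun l => rfl

/-- the digits are cast one by one -/
theorem code_eq (B : ℕ) (l : List ℕ) :
    code B l = l.foldr (fun (a : ℕ) (r : ℚ) => ((a : ℚ) + r) / B) 0 := by
  induction l with
  | nil => rfl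
  | cons a t ih => exact congrArg (fun r : ℚ => ((a : ℚ) + r) / B) ih

/-- Block C. -/
theorem codeStmt : CodeStmt := by
  refine ⟨fun B => (pr_code B).to_comp, fun c L m n rs θ h => Primrec.to_comp ?_⟩
  fun_prop

end Vale.Agent.P113C
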