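import Vale.Agent.P113E.Field
import Vale.Agent.P113D.Defs
import Vale.Agent.P113C.PrimQ

set_option linter.all false

/-!
# P113, block C: the symbolic operations, the field and the force are primitive recursive
-/

namespace Vale.Agent.P113C

open Vale.Agent.P113B Vale.Agent.P113E

attribute [local irreducible] Primrec

@[fun_prop] theorem pr_dBump : Primrec dBump := by unfold dBump; fun_prop

@[fun_prop] theorem pr_dTime : Primrec dTime := by unfold dTime; fun_prop

theorem pr_dList {β : Type} [Primcodable β] {d : β → List (ℚ × β)} (hd : Primrec d) :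
    Primrec (dList d) := by unfold dList; fun_prop

@[fun_prop] theorem pr_dList_time : Primrec (dList dTime) := pr_dList pr_dTime

@[fun_prop] theorem pr_dList_bump : Primrec (dList dBump) := pr_dList pr_dBump

@[fun_prop] theorem pr_scaleC : Primrec (fun p : ℚ × Coef => scaleC p.1 p.2) := by
  unfold scaleC; fun_prop

@[fun_prop] theorem pr_mulC : Primrec (fun p : Coef × Coef => mulC p.1 p.2) := by
  unfold mulC; fun_prop

@[fun_prop] theorem pr_mulT : Primrec (fun p : Term × Term => mulT p.1 p.2) := by
  unfold mulT; fun_prop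

@[fun_prop] theorem pr_dtT : Primrec dtT := by unfold dtT; fun_prop

@[fun_prop] theorem pr_dxT (j : Fin 3) : Primrec (dxT j) := by unfold dxT; fun_prop

@[fun_prop] theorem pr_mulL : Primrec (fun p : List Term × List Term => mulL p.1 p.2) := by
  unfold mulL; fun_prop

@[fun_prop] theorem pr_scaleL : Primrec (fun p : ℚ × List Term => scaleL p.1 p.2) := by
  unfold scaleL; fun_prop

@[fun_prop] theorem pr_negNuL : Primrec negNuL := by unfold negNuL; fun_prop

@[fun_prop] theorem pr_dtL : Primrec dtL := by unfold dtL; fun_prop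

@[fun_prop] theorem pr_dxL (j : Fin 3) : Primrec (dxL j) := by unfold dxL; fun_prop

@[fun_prop] theorem pr_nsL (i : Fin 3) : Primrec (fun U : Fin 3 → List Term => nsL U i) := by
  unfold nsL; fun_prop

@[fun_prop] theorem pr_plB (k : ℕ) : Primrec (plB k) := by unfold plB; fun_prop

@[fun_prop] theorem pr_only (j : Fin 3) : Primrec (only j) := by unfold only; fun_prop

@[fun_prop] theorem pr_flatL (j : Fin 3) : Primrec (flatL j) := by unfold flatL; fun_prop

@[fun_prop] theorem pr_linL (j : Fin 3) : Primrec (fun p : ℚ × Seg => linL j p.1 p.2) := by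
  unfold linL; fun_prop

@[fun_prop] theorem pr_timeL (b : Bool) (k : ℕ) :
    Primrec (fun p : ℚ × List ℚ => timeL b k p.1 p.2) := by unfold timeL; fun_prop

@[fun_prop] theorem pr_vertL (k : ℕ) : Primrec (fun p : ℚ × Rect => vertL k p.1 p.2) := by
  unfold vertL; fun_prop

@[fun_prop] theorem pr_psiL (j : Fin 3) :
    Primrec (fun p : ℚ × ℚ × Seg => psiL j p.1 p.2.1 p.2.2) := by unfold psiL; fun_prop

@[fun_prop] theorem pr_moveL : Primrec (fun p : ℚ × Seg => moveL p.1 p.2) := by
  unfold moveL; fun_prop

@[fun_prop] theorem pr_psi1 : Primrec psi1 := by unfold psi1; fun_prop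

@[fun_prop] theorem pr_psi2 : Primrec psi2 := by unfold psi2; fun_prop

@[fun_prop] theorem pr_uPer0 : Primrec (fun p : List Rule × List Rect => uPer0 p.1 p.2) := by
  unfold uPer0; fun_prop

@[fun_prop] theorem pr_uPer1 : Primrec uPer1 := by unfold uPer1; fun_prop

@[fun_prop] theorem pr_uPer2 : Primrec uPer2 := by unfold uPer2; fun_prop

@[fun_prop] theorem pr_uPer : Primrec (fun p : List Rule × List Rect => uPer p.1 p.2) := by
  unfold uPer; fun_prop

@[fun_prop] theorem pr_uLoad : Primrec (fun p : ℚ × ℚ => uLoad p.1 p.2) := by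
  unfold uLoad; fun_prop

/-- The force is a primitive recursive function of the rules, the halting rectangles and the
starting point. -/
@[fun_prop] theorem pr_force : Primrec (fun p : List Rule × List Rect × ℚ × ℚ =>
    force p.1 p.2.1 p.2.2.1 p.2.2.2) := by
  have h1 := pr_uPer
  have h2 := pr_uLoad
  refine pr_pi fun i => ?_
  have h3 : Primrec (fun p : List Rule × List Rect × ℚ × ℚ => uLoad p.2.2.1 p.2.2.2 i) :=
    pr_app (pr_uLoad.comp (pr_snd (pr_snd pr_id))) (pr_const i)
  have h4 : Primrec (fun p : List Rule × List Rect × ℚ × ℚ => nsL (uPer p.1 p.2.1) i) :=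
    (pr_nsL i).comp (pr_uPer.comp (pr_pair (pr_fst pr_id) (pr_fst (pr_snd pr_id))))
  exact pr_append h4 (pr_dtL.comp h3)

/-! ### The rules of a machine -/

open Vale.Agent.P113D

@[fun_prop] theorem pr_codeD : Primrec (fun p : ℕ × List ℕ => P113D.code p.1 p.2) := by
  unfold P113D.code; fun_prop

@[fun_prop] theorem pr_seg : Primrec (fun p : ℕ × List ℕ => seg p.1 p.2) := by
  unfold seg; fun_prop

@[fun_prop] theorem pr_rect : Primrec (fun p : ℕ × List ℕ × List ℕ => rect p.1 p.2) := by
  unfold rect; fun_prop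

@[fun_prop] theorem pr_domW : Primrec (fun p : ℕ × ℕ × ℕ => domW p.1 p.2.1 p.2.2) := by
  unfold domW; fun_prop

@[fun_prop] theorem pr_pushW : Primrec (fun p : ℕ × ℕ × List ℕ => pushW p.1 p.2.1 p.2.2) := by
  unfold pushW; fun_prop

@[fun_prop] theorem pr_start : Primrec (fun p : ℕ × ℕ × List ℕ => start p.1 p.2.1 p.2.2) := by
  unfold start; fun_prop

theorem pr_rules {α : Type} [Primcodable α] {n : α → ℕ} {halt : α → ℕ → Bool}
    {del : α → ℕ → ℕ → ℕ × ℕ × ℕ} (hn : Primrec n)
    (hh : Primrec (fun p : α × ℕ => halt p.1 p.2))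
    (hd : Primrec (fun p : α × ℕ × ℕ => del p.1 p.2.1 p.2.2)) :
    Primrec (fun a => rules (n a) (halt a) (del a)) := by
  unfold rules idx rule imgW
  fun_prop

theorem pr_halts {α : Type} [Primcodable α] {n : α → ℕ} {halt : α → ℕ → Bool} (hn : Primrec n)
    (hh : Primrec (fun p : α × ℕ => halt p.1 p.2)) :
    Primrec (fun a => halts (n a) (halt a)) := by
  unfold halts
  fun_prop

end Vale.Agent.P113C
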