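import Mathlib

set_option linter.all false

/-!
# P113, block C: `fun_prop` for primitive recursive functions

After importing this file, `fun_prop` proves goals `Primrec (fun a => ...)` for expressions built
from pairs, natural numbers, booleans, `decide`, `if`, options, sums and lists.
-/

namespace Vale.Agent.P113C

attribute [fun_prop] Primrec

universe u₁ u₂ u₃ u₄

variable {α : Type u₁} {β : Type u₂} {γ : Type u₃} {σ : Type u₄}
  [Primcodable α] [Primcodable β] [Primcodable γ] [Primcodable σ]

@[fun_prop] theorem pr_id : Primrec (fun a : α => a) := Primrec.id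

@[fun_prop] theorem pr_const (b : β) : Primrec (fun _ : α => b) := Primrec.const b

@[fun_prop] theorem pr_comp {g : β → γ} {f : α → β} (hg : Primrec g) (hf : Primrec f) :
    Primrec (fun a => g (f a)) := hg.comp hf

@[fun_prop] theorem pr_pair {f : α → β} {g : α → γ} (hf : Primrec f) (hg : Primrec g) :
    Primrec (fun a => (f a, g a)) := hf.pair hg

@[fun_prop] theorem pr_fst {f : α → β × γ} (hf : Primrec f) : Primrec (fun a => (f a).1) :=
  Primrec.fst.comp hf

@[fun_prop] theorem pr_snd {f : α → β × γ} (hf : Primrec f) : Primrec (fun a => (f a).2) :=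
  Primrec.snd.comp hf

/-! ### Booleans and case distinctions -/

@[fun_prop] theorem pr_not {f : α → Bool} (hf : Primrec f) : Primrec (fun a => !(f a)) :=
  Primrec.not.comp hf

@[fun_prop] theorem pr_and {f g : α → Bool} (hf : Primrec f) (hg : Primrec g) :
    Primrec (fun a => f a && g a) := Primrec.and.comp hf hg

@[fun_prop] theorem pr_or {f g : α → Bool} (hf : Primrec f) (hg : Primrec g) :
    Primrec (fun a => f a || g a) := Primrec.or.comp hf hg

@[fun_prop] theorem pr_xor {f g : α → Bool} (hf : Primrec f) (hg : Primrec g) :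
    Primrec (fun a => xor (f a) (g a)) := (Primrec.dom_bool₂ xor).comp hf hg

@[fun_prop] theorem pr_toNat {f : α → Bool} (hf : Primrec f) :
    Primrec (fun a => (f a).toNat) := (Primrec.dom_bool Bool.toNat).comp hf

@[fun_prop] theorem pr_cond {c : α → Bool} {f g : α → σ} (hc : Primrec c) (hf : Primrec f)
    (hg : Primrec g) : Primrec (fun a => bif c a then f a else g a) := Primrec.cond hc hf hg

@[fun_prop] theorem pr_ite {c : α → Prop} [DecidablePred c] {f g : α → σ}
    (hc : Primrec (fun a => decide (c a))) (hf : Primrec f) (hg : Primrec g) :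
    Primrec (fun a => if c a then f a else g a) := Primrec.ite hc.primrecPred hf hg

@[fun_prop] theorem pr_decide_eq {f g : α → β} [∀ a, Decidable (f a = g a)] (hf : Primrec f)
    (hg : Primrec g) : Primrec (fun a => decide (f a = g a)) :=
  (Primrec.eq.comp hf hg).decide

@[fun_prop] theorem pr_decide_ne {f g : α → β} [∀ a, Decidable (f a ≠ g a)] (hf : Primrec f)
    (hg : Primrec g) : Primrec (fun a => decide (f a ≠ g a)) :=
  (Primrec.eq.comp hf hg).not.decide

@[fun_prop] theorem pr_decide_not {p : α → Prop} [DecidablePred p] [∀ a, Decidable (¬ p a)]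
    (hp : Primrec (fun a => decide (p a))) : Primrec (fun a => decide (¬ p a)) :=
  hp.primrecPred.not.decide

@[fun_prop] theorem pr_decide_and {p q : α → Prop} [DecidablePred p] [DecidablePred q]
    [∀ a, Decidable (p a ∧ q a)] (hp : Primrec (fun a => decide (p a)))
    (hq : Primrec (fun a => decide (q a))) : Primrec (fun a => decide (p a ∧ q a)) :=
  (hp.primrecPred.and hq.primrecPred).decide

@[fun_prop] theorem pr_decide_or {p q : α → Prop} [DecidablePred p] [DecidablePred q]
    [∀ a, Decidable (p a ∨ q a)] (hp : Primrec (fun a => decide (p a)))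
    (hq : Primrec (fun a => decide (q a))) : Primrec (fun a => decide (p a ∨ q a)) :=
  (hp.primrecPred.or hq.primrecPred).decide

@[fun_prop] theorem pr_beq [BEq β] [LawfulBEq β] {f g : α → β} (hf : Primrec f) (hg : Primrec g) :
    Primrec (fun a => f a == g a) := by
  classical
  exact (pr_decide_eq hf hg).of_eq fun a => by
    by_cases h : f a = g a <;> simp [h]

@[fun_prop] theorem pr_bne [BEq β] [LawfulBEq β] {f g : α → β} (hf : Primrec f) (hg : Primrec g) :
    Primrec (fun a => f a != g a) := pr_not (pr_beq hf hg)

/-! ### Natural numbers -/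

@[fun_prop] theorem pr_nat_add {f g : α → ℕ} (hf : Primrec f) (hg : Primrec g) :
    Primrec (fun a => f a + g a) := Primrec.nat_add.comp hf hg

@[fun_prop] theorem pr_nat_sub {f g : α → ℕ} (hf : Primrec f) (hg : Primrec g) :
    Primrec (fun a => f a - g a) := Primrec.nat_sub.comp hf hg

@[fun_prop] theorem pr_nat_mul {f g : α → ℕ} (hf : Primrec f) (hg : Primrec g) :
    Primrec (fun a => f a * g a) := Primrec.nat_mul.comp hf hg

@[fun_prop] theorem pr_nat_div {f g : α → ℕ} (hf : Primrec f) (hg : Primrec g) :
    Primrec (fun a => f a / g a) := Primrec.nat_div.comp hf hg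

@[fun_prop] theorem pr_nat_mod {f g : α → ℕ} (hf : Primrec f) (hg : Primrec g) :
    Primrec (fun a => f a % g a) := Primrec.nat_mod.comp hf hg

@[fun_prop] theorem pr_nat_pow {f g : α → ℕ} (hf : Primrec f) (hg : Primrec g) :
    Primrec (fun a => f a ^ g a) :=
  (Primrec₂.unpaired'.1 Nat.Primrec.pow).comp hf hg

@[fun_prop] theorem pr_nat_succ {f : α → ℕ} (hf : Primrec f) : Primrec (fun a => (f a).succ) :=
  Primrec.succ.comp hf

@[fun_prop] theorem pr_nat_pred {f : α → ℕ} (hf : Primrec f) : Primrec (fun a => (f a).pred) :=
  Primrec.pred.comp hf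

@[fun_prop] theorem pr_nat_max {f g : α → ℕ} (hf : Primrec f) (hg : Primrec g) :
    Primrec (fun a => max (f a) (g a)) := Primrec.nat_max.comp hf hg

@[fun_prop] theorem pr_nat_min {f g : α → ℕ} (hf : Primrec f) (hg : Primrec g) :
    Primrec (fun a => min (f a) (g a)) := Primrec.nat_min.comp hf hg

@[fun_prop] theorem pr_nat_le {f g : α → ℕ} [∀ a, Decidable (f a ≤ g a)] (hf : Primrec f)
    (hg : Primrec g) : Primrec (fun a => decide (f a ≤ g a)) :=
  (Primrec.nat_le.comp hf hg).decide

@[fun_prop] theorem pr_nat_lt {f g : α → ℕ} [∀ a, Decidable (f a < g a)] (hf : Primrec f)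
    (hg : Primrec g) : Primrec (fun a => decide (f a < g a)) :=
  (Primrec.nat_lt.comp hf hg).decide

@[fun_prop] theorem pr_nat_dvd {f g : α → ℕ} [∀ a, Decidable (f a ∣ g a)] (hf : Primrec f)
    (hg : Primrec g) : Primrec (fun a => decide (f a ∣ g a)) :=
  (pr_decide_eq (pr_nat_mod hg hf) (pr_const 0)).of_eq fun a => by
    simp [Nat.dvd_iff_mod_eq_zero]

@[fun_prop] theorem pr_natPair {f g : α → ℕ} (hf : Primrec f) (hg : Primrec g) :
    Primrec (fun a => Nat.pair (f a) (g a)) := Primrec₂.natPair.comp hf hg

@[fun_prop] theorem pr_unpair {f : α → ℕ} (hf : Primrec f) :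
    Primrec (fun a => Nat.unpair (f a)) := Primrec.unpair.comp hf

@[fun_prop] theorem pr_encode {f : α → β} (hf : Primrec f) :
    Primrec (fun a => Encodable.encode (f a)) := Primrec.encode.comp hf

@[fun_prop] theorem pr_iterate {n : α → ℕ} {g : α → β} {h : α → β → β} (hn : Primrec n)
    (hg : Primrec g) (hh : Primrec (fun p : α × β => h p.1 p.2)) :
    Primrec (fun a => (h a)^[n a] (g a)) := Primrec.nat_iterate hn hg hh

@[fun_prop] theorem pr_findGreatest {f : α → ℕ} {p : α → ℕ → Prop} [∀ a, DecidablePred (p a)]
    (hf : Primrec f) (hp : Primrec (fun x : α × ℕ => decide (p x.1 x.2))) :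
    Primrec (fun a => Nat.findGreatest (p a) (f a)) :=
  Primrec.nat_findGreatest hf hp.primrecPred

@[fun_prop] theorem pr_gcd {f g : α → ℕ} (hf : Primrec f) (hg : Primrec g) :
    Primrec (fun a => Nat.gcd (f a) (g a)) := by
  have h : Primrec (fun a => Nat.findGreatest (fun d => d ∣ f a ∧ d ∣ g a) (f a + g a)) := by
    fun_prop
  refine h.of_eq fun a => ?_
  generalize f a = m
  generalize g a = n
  rw [Nat.findGreatest_eq_iff]
  refine ⟨?_, fun _ => ⟨Nat.gcd_dvd_left _ _, Nat.gcd_dvd_right _ _⟩, fun k hk hk' hd => ?_⟩
  · rcases Nat.eq_zero_or_pos m with rfl | hm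
    · simp
    · exact (Nat.gcd_le_left _ hm).trans (Nat.le_add_right _ _)
  · have h1 : k ∣ Nat.gcd m n := Nat.dvd_gcd hd.1 hd.2
    rcases Nat.eq_zero_or_pos (Nat.gcd m n) with h0 | h0
    · obtain ⟨rfl, rfl⟩ := Nat.gcd_eq_zero_iff.1 h0
      omega
    · exact absurd (Nat.le_of_dvd h0 h1) (by omega)

@[fun_prop] theorem pr_fin_val {n : ℕ} {f : α → Fin n} (hf : Primrec f) :
    Primrec (fun a => ((f a : Fin n) : ℕ)) := Primrec.fin_val.comp hf

/-! ### Options and sums -/

@[fun_prop] theorem pr_some {f : α → β} (hf : Primrec f) : Primrec (fun a => some (f a)) :=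
  Primrec.option_some.comp hf

@[fun_prop] theorem pr_optElim {o : α → Option β} {f : α → σ} {g : α → β → σ} (ho : Primrec o)
    (hf : Primrec f) (hg : Primrec (fun p : α × β => g p.1 p.2)) :
    Primrec (fun a => (o a).elim (f a) (g a)) :=
  (Primrec.option_casesOn ho hf hg).of_eq fun a => by cases o a <;> rfl

@[fun_prop] theorem pr_optMap {o : α → Option β} {g : α → β → σ} (ho : Primrec o)
    (hg : Primrec (fun p : α × β => g p.1 p.2)) : Primrec (fun a => (o a).map (g a)) :=
  Primrec.option_map ho hg

@[fun_prop] theorem pr_optBind {o : α → Option β} {g : α → β → Option σ} (ho : Primrec o)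
    (hg : Primrec (fun p : α × β => g p.1 p.2)) : Primrec (fun a => (o a).bind (g a)) :=
  Primrec.option_bind ho hg

@[fun_prop] theorem pr_optGetD {o : α → Option β} {f : α → β} (ho : Primrec o) (hf : Primrec f) :
    Primrec (fun a => (o a).getD (f a)) := Primrec.option_getD.comp ho hf

@[fun_prop] theorem pr_isSome {o : α → Option β} (ho : Primrec o) :
    Primrec (fun a => (o a).isSome) := Primrec.option_isSome.comp ho

@[fun_prop] theorem pr_isNone {o : α → Option β} (ho : Primrec o) :
    Primrec (fun a => (o a).isNone) :=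
  (pr_not (pr_isSome ho)).of_eq fun a => by cases o a <;> rfl

@[fun_prop] theorem pr_optToList {o : α → Option β} (ho : Primrec o) :
    Primrec (fun a => (o a).toList) := Primrec.optionToList.comp ho

@[fun_prop] theorem pr_inl {f : α → β} (hf : Primrec f) :
    Primrec (fun a => (Sum.inl (f a) : β ⊕ γ)) := Primrec.sumInl.comp hf

@[fun_prop] theorem pr_inr {f : α → γ} (hf : Primrec f) :
    Primrec (fun a => (Sum.inr (f a) : β ⊕ γ)) := Primrec.sumInr.comp hf

@[fun_prop] theorem pr_sumElim {s : α → β ⊕ γ} {g : α → β → σ} {h : α → γ → σ} (hs : Primrec s)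
    (hg : Primrec (fun p : α × β => g p.1 p.2)) (hh : Primrec (fun p : α × γ => h p.1 p.2)) :
    Primrec (fun a => Sum.elim (g a) (h a) (s a)) :=
  (Primrec.sumCasesOn hs hg hh).of_eq fun a => by cases s a <;> rfl

@[fun_prop] theorem pr_isLeft {s : α → β ⊕ γ} (hs : Primrec s) :
    Primrec (fun a => (s a).isLeft) :=
  (pr_sumElim (g := fun _ _ => true) (h := fun _ _ => false) hs (pr_const _) (pr_const _)).of_eq
    fun a => by cases s a <;> rfl

@[fun_prop] theorem pr_isRight {s : α → β ⊕ γ} (hs : Primrec s) :
    Primrec (fun a => (s a).isRight) :=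
  (pr_sumElim (g := fun _ _ => false) (h := fun _ _ => true) hs (pr_const _) (pr_const _)).of_eq
    fun a => by cases s a <;> rfl

/-! ### Lists -/

@[fun_prop] theorem pr_cons {f : α → β} {l : α → List β} (hf : Primrec f) (hl : Primrec l) :
    Primrec (fun a => f a :: l a) := Primrec.list_cons.comp hf hl

@[fun_prop] theorem pr_append {k l : α → List β} (hk : Primrec k) (hl : Primrec l) :
    Primrec (fun a => k a ++ l a) := Primrec.list_append.comp hk hl

@[fun_prop] theorem pr_map {l : α → List β} {g : α → β → σ} (hl : Primrec l)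
    (hg : Primrec (fun p : α × β => g p.1 p.2)) : Primrec (fun a => (l a).map (g a)) :=
  Primrec.list_map hl hg

@[fun_prop] theorem pr_flatMap {l : α → List β} {g : α → β → List σ} (hl : Primrec l)
    (hg : Primrec (fun p : α × β => g p.1 p.2)) : Primrec (fun a => (l a).flatMap (g a)) :=
  Primrec.list_flatMap hl hg

@[fun_prop] theorem pr_filterMap {l : α → List β} {g : α → β → Option σ} (hl : Primrec l)
    (hg : Primrec (fun p : α × β => g p.1 p.2)) : Primrec (fun a => (l a).filterMap (g a)) :=
  Primrec.listFilterMap hl hg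

@[fun_prop] theorem pr_filter {l : α → List β} {g : α → β → Bool} (hl : Primrec l)
    (hg : Primrec (fun p : α × β => g p.1 p.2)) : Primrec (fun a => (l a).filter (g a)) := by
  have h : Primrec (fun a => (l a).filterMap (fun b => bif g a b then some b else none)) := by
    fun_prop
  refine h.of_eq fun a => ?_
  rw [← List.filterMap_eq_filter]
  congr 1
  funext b
  cases hb : g a b <;> simp [Option.guard, hb]

@[fun_prop] theorem pr_flatten {l : α → List (List β)} (hl : Primrec l) :
    Primrec (fun a => (l a).flatten) := Primrec.list_flatten.comp hl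

@[fun_prop] theorem pr_foldr {l : α → List β} {g : α → σ} {h : α → β → σ → σ} (hl : Primrec l)
    (hg : Primrec g) (hh : Primrec (fun p : α × β × σ => h p.1 p.2.1 p.2.2)) :
    Primrec (fun a => (l a).foldr (h a) (g a)) :=
  Primrec.list_foldr (h := fun a p => h a p.1 p.2) hl hg hh

@[fun_prop] theorem pr_foldl {l : α → List β} {g : α → σ} {h : α → σ → β → σ} (hl : Primrec l)
    (hg : Primrec g) (hh : Primrec (fun p : α × σ × β => h p.1 p.2.1 p.2.2)) :
    Primrec (fun a => (l a).foldl (h a) (g a)) :=
  Primrec.list_foldl (h := fun a p => h a p.1 p.2) hl hg hh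

@[fun_prop] theorem pr_length {l : α → List β} (hl : Primrec l) :
    Primrec (fun a => (l a).length) := Primrec.list_length.comp hl

@[fun_prop] theorem pr_range {n : α → ℕ} (hn : Primrec n) :
    Primrec (fun a => List.range (n a)) := Primrec.list_range.comp hn

@[fun_prop] theorem pr_reverse {l : α → List β} (hl : Primrec l) :
    Primrec (fun a => (l a).reverse) := Primrec.list_reverse.comp hl

@[fun_prop] theorem pr_tail {l : α → List β} (hl : Primrec l) :
    Primrec (fun a => (l a).tail) := Primrec.list_tail.comp hl

@[fun_prop] theorem pr_head? {l : α → List β} (hl : Primrec l) :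
    Primrec (fun a => (l a).head?) := Primrec.list_head?.comp hl

@[fun_prop] theorem pr_headD {l : α → List β} {f : α → β} (hl : Primrec l) (hf : Primrec f) :
    Primrec (fun a => (l a).headD (f a)) :=
  (pr_optGetD (pr_head? hl) hf).of_eq fun a => by cases l a <;> rfl

@[fun_prop] theorem pr_headI [Inhabited β] {l : α → List β} (hl : Primrec l) :
    Primrec (fun a => (l a).headI) := Primrec.list_headI.comp hl

@[fun_prop] theorem pr_getElem? {l : α → List β} {n : α → ℕ} (hl : Primrec l) (hn : Primrec n) :
    Primrec (fun a => (l a)[n a]?) := Primrec.list_getElem?.comp hl hn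

@[fun_prop] theorem pr_getD {l : α → List β} {n : α → ℕ} {f : α → β} (hl : Primrec l)
    (hn : Primrec n) (hf : Primrec f) : Primrec (fun a => (l a).getD (n a) (f a)) :=
  (pr_optGetD (pr_getElem? hl hn) hf).of_eq fun a => by simp [List.getD]

@[fun_prop] theorem pr_getI [Inhabited β] {l : α → List β} {n : α → ℕ} (hl : Primrec l)
    (hn : Primrec n) : Primrec (fun a => (l a).getI (n a)) := Primrec.list_getI.comp hl hn

@[fun_prop] theorem pr_take {l : α → List β} {n : α → ℕ} (hn : Primrec n) (hl : Primrec l) :
    Primrec (fun a => (l a).take (n a)) := Primrec.list_take.comp hn hl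

@[fun_prop] theorem pr_drop {l : α → List β} {n : α → ℕ} (hn : Primrec n) (hl : Primrec l) :
    Primrec (fun a => (l a).drop (n a)) := Primrec.list_drop.comp hn hl

@[fun_prop] theorem pr_set {l : α → List β} {n : α → ℕ} {f : α → β} (hl : Primrec l)
    (hn : Primrec n) (hf : Primrec f) : Primrec (fun a => (l a).set (n a) (f a)) :=
  Primrec.list_set.comp hl (hn.pair hf)

@[fun_prop] theorem pr_eraseIdx {l : α → List β} {n : α → ℕ} (hl : Primrec l) (hn : Primrec n) :
    Primrec (fun a => (l a).eraseIdx (n a)) := by
  have h : Primrec (fun a => (l a).take (n a) ++ (l a).drop (n a + 1)) := by fun_prop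
  exact h.of_eq fun a => (List.eraseIdx_eq_take_drop_succ _ _).symm

@[fun_prop] theorem pr_replicate {n : α → ℕ} {f : α → β} (hn : Primrec n) (hf : Primrec f) :
    Primrec (fun a => List.replicate (n a) (f a)) := by
  have h : Primrec (fun a => (List.range (n a)).map (fun _ => f a)) := by fun_prop
  exact h.of_eq fun a => by simp

@[fun_prop] theorem pr_all {l : α → List β} {g : α → β → Bool} (hl : Primrec l)
    (hg : Primrec (fun p : α × β => g p.1 p.2)) : Primrec (fun a => (l a).all (g a)) := by
  have h : Primrec (fun a => (l a).foldr (fun b r => g a b && r) true) := by fun_prop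
  refine h.of_eq fun a => ?_
  induction l a with
  | nil => rfl
  | cons b t ih => simp [ih]

@[fun_prop] theorem pr_any {l : α → List β} {g : α → β → Bool} (hl : Primrec l)
    (hg : Primrec (fun p : α × β => g p.1 p.2)) : Primrec (fun a => (l a).any (g a)) := by
  have h : Primrec (fun a => (l a).foldr (fun b r => g a b || r) false) := by fun_prop
  refine h.of_eq fun a => ?_
  induction l a with
  | nil => rfl
  | cons b t ih => simp [ih]

@[fun_prop] theorem pr_decide_mem {f : α → β} {l : α → List β} [∀ a, Decidable (f a ∈ l a)]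
    (hf : Primrec f) (hl : Primrec l) : Primrec (fun a => decide (f a ∈ l a)) := by
  classical
  have h : Primrec (fun a => (l a).any (fun b => decide (f a = b))) := by fun_prop
  refine h.of_eq fun a => ?_
  rw [Bool.eq_iff_iff]
  simp

@[fun_prop] theorem pr_contains [BEq β] [LawfulBEq β] {f : α → β} {l : α → List β}
    (hl : Primrec l) (hf : Primrec f) : Primrec (fun a => (l a).contains (f a)) := by
  classical
  refine (pr_decide_mem hf hl).of_eq fun a => ?_
  rw [Bool.eq_iff_iff]
  simp

@[fun_prop] theorem pr_find? {l : α → List β} {g : α → β → Bool} (hl : Primrec l)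
    (hg : Primrec (fun p : α × β => g p.1 p.2)) : Primrec (fun a => (l a).find? (g a)) := by
  have h : Primrec (fun a => ((l a).filter (g a)).head?) := by fun_prop
  exact h.of_eq fun a => List.head?_filter

@[fun_prop] theorem pr_findIdx {l : α → List β} {g : α → β → Bool} (hl : Primrec l)
    (hg : Primrec (fun p : α × β => g p.1 p.2)) : Primrec (fun a => (l a).findIdx (g a)) :=
  Primrec.list_findIdx hl hg

@[fun_prop] theorem pr_idxOf [BEq β] [LawfulBEq β] {f : α → β} {l : α → List β}
    (hf : Primrec f) (hl : Primrec l) : Primrec (fun a => (l a).idxOf (f a)) := by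
  have h : Primrec (fun a => (l a).findIdx (fun b => b == f a)) := by fun_prop
  exact h.of_eq fun a => rfl

@[fun_prop] theorem pr_lookup [BEq β] [LawfulBEq β] {f : α → β} {l : α → List (β × γ)}
    (hf : Primrec f) (hl : Primrec l) : Primrec (fun a => (l a).lookup (f a)) := by
  have h : Primrec (fun a => ((l a).find? (fun b => f a == b.1)).map (fun b => b.2)) := by fun_prop
  refine h.of_eq fun a => ?_
  induction l a with
  | nil => rfl
  | cons b t ih =>
    obtain ⟨b1, b2⟩ := b
    cases hb : (f a == b1) <;> simp [List.lookup, List.find?, hb, ih]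

@[fun_prop] theorem pr_countP {l : α → List β} {g : α → β → Bool} (hl : Primrec l)
    (hg : Primrec (fun p : α × β => g p.1 p.2)) : Primrec (fun a => (l a).countP (g a)) := by
  have h : Primrec (fun a => ((l a).filter (g a)).length) := by fun_prop
  exact h.of_eq fun a => List.countP_eq_length_filter.symm

@[fun_prop] theorem pr_zipIdx {l : α → List β} (hl : Primrec l) :
    Primrec (fun a => (l a).zipIdx) := by
  have h : Primrec (fun a => (List.range (l a).length).filterMap
      (fun i => ((l a)[i]?).map (fun b => (b, i)))) := by fun_prop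
  refine h.of_eq fun a => ?_
  generalize l a = k
  induction k using List.reverseRecOn with
  | nil => rfl
  | append_singleton t b ih =>
    rw [List.length_append, List.length_singleton, List.range_succ, List.filterMap_append,
      List.zipIdx_append, ← ih]
    congr 1
    · refine List.filterMap_congr fun i hi => ?_
      rw [List.getElem?_append_left (List.mem_range.1 hi)]
    · simp

@[fun_prop] theorem pr_zip {k : α → List β} {l : α → List γ} (hk : Primrec k) (hl : Primrec l) :
    Primrec (fun a => (k a).zip (l a)) := by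
  have h : Primrec (fun a => ((k a).zipIdx).filterMap
      (fun p => ((l a)[p.2]?).map (fun c => (p.1, c)))) := by fun_prop
  refine h.of_eq fun a => ?_
  generalize k a = k
  generalize l a = l
  have key : ∀ (k : List β) (l m : List γ), (k.zipIdx m.length).filterMap
      (fun p => ((m ++ l)[p.2]?).map (fun c => (p.1, c))) = k.zip l := by
    intro k
    induction k with
    | nil => intro l m; simp
    | cons b t ih =>
      intro l m
      cases l with
      | nil =>
        simp only [List.zip_nil_right, List.filterMap_eq_nil_iff, List.append_nil]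
        intro p hp
        have := (List.mem_zipIdx hp).1
        simp [List.getElem?_eq_none this]
      | cons c l =>
        have := ih l (m ++ [c])
        simp only [List.length_append, List.length_singleton, List.append_assoc,
          List.singleton_append] at this
        simp [List.zipIdx_cons, this]
  simpa using key k l []

@[fun_prop] theorem pr_nat_sum {l : α → List ℕ} (hl : Primrec l) :
    Primrec (fun a => (l a).sum) := by
  have h : Primrec (fun a => (l a).foldr (fun b r => b + r) 0) := by fun_prop
  exact h.of_eq fun a => rfl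

@[fun_prop] theorem pr_nat_prod {l : α → List ℕ} (hl : Primrec l) :
    Primrec (fun a => (l a).prod) := by
  have h : Primrec (fun a => (l a).foldr (fun b r => b * r) 1) := by fun_prop
  exact h.of_eq fun a => rfl

@[fun_prop] theorem pr_product {k : α → List β} {l : α → List γ} (hk : Primrec k)
    (hl : Primrec l) : Primrec (fun a => (k a).product (l a)) := by
  have h : Primrec (fun a => (k a).flatMap (fun b => (l a).map (fun c => (b, c)))) := by fun_prop
  exact h.of_eq fun a => rfl

@[fun_prop] theorem pr_sprod {k : α → List β} {l : α → List γ} (hk : Primrec k)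
    (hl : Primrec l) : Primrec (fun a => (k a) ×ˢ (l a)) := pr_product hk hl

/-! ### Functions on `Fin n` -/

theorem pr_pi {n : ℕ} {f : α → Fin n → σ} (hf : ∀ i, Primrec (fun a => f a i)) :
    Primrec f :=
  Primrec.fin_curry.2 (Primrec.fin_curry₁.2 hf).swap

theorem pr_app {n : ℕ} {f : α → Fin n → σ} {i : α → Fin n} (hf : Primrec f)
    (hi : Primrec i) : Primrec (fun a => f a (i a)) := Primrec.fin_app.comp hf hi

end Vale.Agent.P113C
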