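import Vale.Agent.P113C.Halt
import Vale.Agent.P113M.Univ

/-!
# P113, block D1: the universal machine
-/

namespace Vale.Agent.P113C

open Vale.Agent.P113

/-- Block D1. -/
theorem univStmt : UnivStmt := by
  obtain ⟨Γ, Λ, i1, i2, i3, i4, N, inp, h1, h2⟩ := Vale.Agent.P113M.exists_tm0 halts_re
  exact ⟨Γ, Λ, i1, i2, i3, i4, N, inp, fun dig => (h1 dig).to_comp, h2⟩

end Vale.Agent.P113C
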